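import Mathlib

/-!
Augmented simplicial chains over the field with two elements, and chain maps and homotopies
defined by recursion over fillers.
-/

namespace Vale.Agent.P067.Sub

open Finset

variable {α : Type*} [DecidableEq α]

/-- chains: formal sums of finite vertex sets -/
abbrev Ch (α : Type*) : Type _ := Finset α →₀ ZMod 2

/-- one set as a chain -/
noncomputable def sg (s : Finset α) : Ch α := Finsupp.single s 1

/-- the linear map with prescribed values on sets -/
noncomputable def lift (h : Finset α → Ch α) : Ch α →ₗ[ZMod 2] Ch α :=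
  Finsupp.linearCombination (ZMod 2) h

omit [DecidableEq α] in
@[simp] theorem lift_sg (h : Finset α → Ch α) (s : Finset α) : lift h (sg s) = h s := by
  simp [lift, sg, Finsupp.linearCombination_single]

omit [DecidableEq α] in
theorem ext_sg {M : Type*} [AddCommMonoid M] [Module (ZMod 2) M] {A B : Ch α →ₗ[ZMod 2] M}
    (h : ∀ s, A (sg s) = B (sg s)) : A = B :=
  Finsupp.lhom_ext fun s b => by
    have e : Finsupp.single s b = b • sg s := by simp [sg]
    rw [e, map_smul, map_smul, h]

omit [DecidableEq α] in
theorem add_self' (z : Ch α) : z + z = 0 := ZModModule.add_self z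

/-- the boundary, augmented by the empty set -/
noncomputable def bd : Ch α →ₗ[ZMod 2] Ch α := lift fun s => ∑ x ∈ s, sg (s.erase x)

/-- the cone with apex `c` -/
noncomputable def cone (c : α) : Ch α →ₗ[ZMod 2] Ch α :=
  lift fun s => if c ∈ s then 0 else sg (insert c s)

theorem bd_sg (s : Finset α) : bd (sg s) = ∑ x ∈ s, sg (s.erase x) := lift_sg _ _

theorem bd_cone (c : α) (z : Ch α) : bd (cone c z) + cone c (bd z) = z := by
  have h : bd.comp (cone c) + (cone c).comp bd = (LinearMap.id : Ch α →ₗ[ZMod 2] Ch α) := by
    refine ext_sg fun s => ?_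
    simp only [LinearMap.add_apply, LinearMap.comp_apply, LinearMap.id_apply, cone, lift_sg,
      bd_sg, map_sum]
    by_cases hc : c ∈ s
    · rw [if_pos hc, map_zero, zero_add, Finset.sum_eq_single c]
      · simp [Finset.insert_erase hc]
      · intro x _ hx
        rw [if_pos (Finset.mem_erase.mpr ⟨Ne.symm hx, hc⟩)]
      · exact fun h => absurd hc h
    · rw [if_neg hc, bd_sg, Finset.sum_insert hc, Finset.erase_insert hc, add_assoc,
        ← Finset.sum_add_distrib]
      refine add_eq_left.mpr (Finset.sum_eq_zero fun x hx => ?_)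
      have hxc : c ≠ x := fun h => hc (h ▸ hx)
      rw [if_neg (fun h => hc (Finset.mem_of_mem_erase h)), Finset.erase_insert_of_ne hxc]
      exact add_self' _
  exact LinearMap.congr_fun h z

theorem bd_bd (z : Ch α) : bd (bd z) = 0 := by
  have h : (bd.comp bd : Ch α →ₗ[ZMod 2] Ch α) = 0 := by
    refine ext_sg fun s => ?_
    show bd (bd (sg s)) = 0
    induction s using Finset.induction_on with
    | empty => simp [bd_sg]
    | @insert c t hc ih =>
      have e : sg (insert c t) = cone c (sg t) := by simp [cone, hc]
      have h1 : bd (sg (insert c t)) = sg t + cone c (bd (sg t)) := by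
        have := bd_cone c (sg t)
        rw [← e] at this
        calc bd (sg (insert c t))
            = bd (sg (insert c t)) + (cone c (bd (sg t)) + cone c (bd (sg t))) := by
              rw [add_self', add_zero]
          _ = sg t + cone c (bd (sg t)) := by rw [← add_assoc, this]
      have h2 := bd_cone c (bd (sg t))
      rw [ih, map_zero, add_zero] at h2
      rw [h1, map_add, h2, add_self']
  exact LinearMap.congr_fun h z

/-- a filler is a contraction of the augmented chains -/
def IsFiller (S : Ch α →ₗ[ZMod 2] Ch α) : Prop := ∀ z, bd (S z) + S (bd z) = z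

theorem cone_filler (c : α) : IsFiller (cone c) := bd_cone c

theorem IsFiller.bd_eq {S : Ch α →ₗ[ZMod 2] Ch α} (hS : IsFiller S) {z : Ch α} (hz : bd z = 0) :
    bd (S z) = z := by
  simpa [hz] using hS z

/-- recursion over fillers -/
noncomputable def recFun (S : Finset α → Ch α →ₗ[ZMod 2] Ch α) (Φ : Ch α →ₗ[ZMod 2] Ch α)
    (e : Ch α) (s : Finset α) : Ch α :=
  if s = ∅ then e
  else S s (Φ (sg s) + ∑ x ∈ s.attach, recFun S Φ e (s.erase x.1))
termination_by s.card
decreasing_by exact Finset.card_erase_lt_of_mem x.2

/-- the linear map given by the recursion -/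
noncomputable def recMap (S : Finset α → Ch α →ₗ[ZMod 2] Ch α) (Φ : Ch α →ₗ[ZMod 2] Ch α)
    (e : Ch α) : Ch α →ₗ[ZMod 2] Ch α :=
  lift (recFun S Φ e)

variable {S : Finset α → Ch α →ₗ[ZMod 2] Ch α} {Φ : Ch α →ₗ[ZMod 2] Ch α} {e : Ch α}

theorem recMap_empty : recMap S Φ e (sg ∅) = e := by
  rw [recMap, lift_sg, recFun, if_pos rfl]

theorem recMap_bd_sg (s : Finset α) :
    recMap S Φ e (bd (sg s)) = ∑ x ∈ s, recMap S Φ e (sg (s.erase x)) := by
  rw [bd_sg, map_sum]

theorem recMap_sg {s : Finset α} (hs : s ≠ ∅) :
    recMap S Φ e (sg s) = S s (Φ (sg s) + recMap S Φ e (bd (sg s))) := by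
  conv_lhs => rw [recMap, lift_sg, recFun, if_neg hs,
    Finset.sum_attach s (fun x => recFun S Φ e (s.erase x))]
  rw [recMap_bd_sg]
  simp only [recMap, lift_sg]

theorem recMap_homotopy (hS : ∀ s, IsFiller (S s)) (hΦ : ∀ z, bd (Φ z) = Φ (bd z))
    (he : bd e = Φ (sg ∅)) (z : Ch α) :
    bd (recMap S Φ e z) + recMap S Φ e (bd z) = Φ z := by
  have key : ∀ m, ∀ s : Finset α, s.card ≤ m →
      bd (recMap S Φ e (sg s)) + recMap S Φ e (bd (sg s)) = Φ (sg s) := by
    intro m
    induction m with
    | zero =>
      intro s hs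
      obtain rfl := Finset.card_eq_zero.mp (Nat.le_zero.mp hs)
      rw [recMap_empty, bd_sg, Finset.sum_empty, map_zero, add_zero, he]
    | succ m ih =>
      intro s hs
      rcases eq_or_ne s ∅ with rfl | hne
      · exact ih ∅ (by simp)
      have h1 : bd (recMap S Φ e (bd (sg s))) = Φ (bd (sg s)) := by
        have h2 : bd (recMap S Φ e (bd (sg s))) + recMap S Φ e (bd (bd (sg s)))
            = Φ (bd (sg s)) := by
          rw [bd_sg]
          simp only [map_sum, ← Finset.sum_add_distrib]
          exact Finset.sum_congr rfl fun x hx => ih _ (by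
            have := Finset.card_erase_lt_of_mem hx; omega)
        rwa [bd_bd, map_zero, add_zero] at h2
      have h3 : bd (Φ (sg s) + recMap S Φ e (bd (sg s))) = 0 := by
        rw [map_add, h1, hΦ, add_self']
      rw [recMap_sg hne, (hS s).bd_eq h3, add_assoc, add_self', add_zero]
  have h : bd.comp (recMap S Φ e) + (recMap S Φ e).comp bd = Φ :=
    ext_sg fun s => key _ s le_rfl
  exact LinearMap.congr_fun h z

/-- chains all whose sets satisfy `P` -/
def On (P : Finset α → Prop) : Submodule (ZMod 2) (Ch α) :=
  Finsupp.supported (ZMod 2) (ZMod 2) {s | P s}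

omit [DecidableEq α] in
theorem mem_On {P : Finset α → Prop} {z : Ch α} : z ∈ On P ↔ ∀ s ∈ z.support, P s :=
  Iff.rfl

omit [DecidableEq α] in
theorem sg_mem {P : Finset α → Prop} {s : Finset α} (h : P s) : sg s ∈ On P :=
  Finsupp.single_mem_supported _ _ h

omit [DecidableEq α] in
theorem On_mono {P Q : Finset α → Prop} (h : ∀ s, P s → Q s) {z : Ch α} (hz : z ∈ On P) :
    z ∈ On Q :=
  fun s hs => h s (hz hs)

omit [DecidableEq α] in
theorem sg_ne_zero_mem {P : Finset α → Prop} {z : Ch α} (hz : z ∈ On P) (h : ∀ s, ¬ P s) :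
    z = 0 := by
  ext s
  by_contra hs
  exact h s (hz (Finsupp.mem_support_iff.mpr hs))

omit [DecidableEq α] in
/-- a linear map sends chains on `P` to a submodule if it does so for single sets -/
theorem map_On {P : Finset α → Prop} {M : Submodule (ZMod 2) (Ch α)}
    (A : Ch α →ₗ[ZMod 2] Ch α) (h : ∀ s, P s → A (sg s) ∈ M) {z : Ch α} (hz : z ∈ On P) :
    A z ∈ M := by
  rw [← Finsupp.sum_single z, Finsupp.sum, map_sum]
  refine Submodule.sum_mem _ fun s hs => ?_
  have e : Finsupp.single s (z s) = z s • sg s := by simp [sg]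
  rw [e, map_smul]
  exact Submodule.smul_mem _ _ (h s (hz hs))

theorem cone_On {P Q : Finset α → Prop} (c : α) (h : ∀ s, P s → c ∉ s → Q (insert c s))
    {z : Ch α} (hz : z ∈ On P) : cone c z ∈ On Q := by
  refine map_On (cone c) (fun s hs => ?_) hz
  rw [cone, lift_sg]
  split_ifs with hc
  · exact Submodule.zero_mem _
  · exact sg_mem (h s hs hc)

theorem recMap_On (P : Finset α → Finset α → Prop) (he : e ∈ On (P ∅))
    (h : ∀ s, s ≠ ∅ → (∀ x ∈ s, recMap S Φ e (sg (s.erase x)) ∈ On (P (s.erase x))) →
      S s (Φ (sg s) + recMap S Φ e (bd (sg s))) ∈ On (P s)) (s : Finset α) :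
    recMap S Φ e (sg s) ∈ On (P s) := by
  induction s using Finset.strongInduction with
  | H s ih =>
    rcases eq_or_ne s ∅ with rfl | hne
    · rw [recMap_empty]; exact he
    · rw [recMap_sg hne]
      exact h s hne fun x hx => ih _ (Finset.erase_ssubset hx)

/-- a nonempty set's chosen vertex; `v` serves for the empty set -/
noncomputable def pick (v : α) (s : Finset α) : α :=
  if h : s.Nonempty then h.choose else v

omit [DecidableEq α] in
theorem pick_mem (v : α) {s : Finset α} (hs : s ≠ ∅) : pick v s ∈ s := by
  have h := Finset.nonempty_iff_ne_empty.mpr hs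
  rw [pick, dif_pos h]
  exact h.choose_spec

/-- the chain map of a vertex map -/
noncomputable def push (v : α) (a : α → α) : Ch α →ₗ[ZMod 2] Ch α :=
  recMap (fun s => cone (a (pick v s))) 0 (sg ∅)

theorem bd_push (v : α) (a : α → α) (z : Ch α) : bd (push v a z) = push v a (bd z) := by
  have h := recMap_homotopy (S := fun s => cone (a (pick v s))) (Φ := 0) (e := sg ∅)
    (fun _ => cone_filler _) (fun _ => by simp) (by simp [bd_sg]) z
  simp only [LinearMap.zero_apply] at h
  calc bd (push v a z) = bd (push v a z) + (push v a (bd z) + push v a (bd z)) := by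
        rw [add_self', add_zero]
    _ = (bd (push v a z) + push v a (bd z)) + push v a (bd z) := (add_assoc _ _ _).symm
    _ = push v a (bd z) := by rw [show bd (push v a z) + push v a (bd z) = 0 from h, zero_add]

theorem push_On (v : α) (a : α → α) (s : Finset α) :
    push v a (sg s) ∈ On (fun t => t ⊆ s.image a ∧ t.card = s.card) := by
  refine recMap_On (fun s t => t ⊆ s.image a ∧ t.card = s.card) (sg_mem (by simp))
    (fun s hs ih => ?_) s
  have hin : recMap (fun s => cone (a (pick v s))) 0 (sg ∅) (bd (sg s)) ∈
      On (fun t => t ⊆ s.image a ∧ t.card + 1 = s.card) := by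
    rw [recMap_bd_sg]
    refine Submodule.sum_mem _ fun x hx => On_mono (fun t ht => ?_) (ih x hx)
    exact ⟨ht.1.trans (Finset.image_subset_image (Finset.erase_subset _ _)),
      by rw [ht.2, Finset.card_erase_add_one hx]⟩
  rw [LinearMap.zero_apply, zero_add]
  exact cone_On _ (fun t ht hc => ⟨Finset.insert_subset
    (Finset.mem_image_of_mem a (pick_mem v hs)) ht.1,
    by rw [Finset.card_insert_of_notMem hc, ht.2]⟩) hin

/-- the prism between two vertex maps -/
noncomputable def prism (v : α) (a b : α → α) : Ch α →ₗ[ZMod 2] Ch α :=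
  recMap (fun s => cone (a (pick v s))) (push v a + push v b) 0

theorem bd_prism (v : α) (a b : α → α) (z : Ch α) :
    bd (prism v a b z) + prism v a b (bd z) = push v a z + push v b z :=
  recMap_homotopy (fun _ => cone_filler _)
    (fun z => by simp only [LinearMap.add_apply, map_add, bd_push])
    (by simp [push, recMap_empty, add_self']) z

theorem prism_On (v : α) (a b : α → α) (s : Finset α) :
    prism v a b (sg s) ∈ On (fun t => t ⊆ s.image a ∪ s.image b ∧ t.card = s.card + 1) := by
  refine recMap_On (fun s t => t ⊆ s.image a ∪ s.image b ∧ t.card = s.card + 1)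
    (Submodule.zero_mem _) (fun s hs ih => ?_) s
  refine cone_On _ (P := fun t => t ⊆ s.image a ∪ s.image b ∧ t.card = s.card)
    (fun t ht hc => ⟨Finset.insert_subset
      (Finset.mem_union_left _ (Finset.mem_image_of_mem a (pick_mem v hs))) ht.1,
      by rw [Finset.card_insert_of_notMem hc, ht.2]⟩) ?_
  refine Submodule.add_mem _ ?_ ?_
  · rw [LinearMap.add_apply]
    exact Submodule.add_mem _
      (On_mono (fun t ht => ⟨ht.1.trans Finset.subset_union_left, ht.2⟩) (push_On v a s))
      (On_mono (fun t ht => ⟨ht.1.trans Finset.subset_union_right, ht.2⟩) (push_On v b s))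
  · rw [recMap_bd_sg]
    refine Submodule.sum_mem _ fun x hx => On_mono (fun t ht => ?_) (ih x hx)
    exact ⟨ht.1.trans (Finset.union_subset_union (Finset.image_subset_image (Finset.erase_subset _ _))
      (Finset.image_subset_image (Finset.erase_subset _ _))),
      by rw [ht.2, Finset.card_erase_add_one hx]⟩

theorem push_id (v : α) (z : Ch α) : push v id z = z := by
  have h : push v id = (LinearMap.id : Ch α →ₗ[ZMod 2] Ch α) := by
    refine ext_sg fun s => ?_
    show push v id (sg s) = sg s
    induction s using Finset.strongInduction with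
    | H s ih =>
      rcases eq_or_ne s ∅ with rfl | hne
      · exact recMap_empty
      · have e1 : push v id (bd (sg s)) = bd (sg s) := by
          rw [bd_sg, map_sum]
          exact Finset.sum_congr rfl fun x hx => ih _ (Finset.erase_ssubset hx)
        have h1 : push v id (sg s) = cone (pick v s) (bd (sg s)) := by
          conv_lhs => rw [push, recMap_sg hne, LinearMap.zero_apply, zero_add]
          simp only [id_eq]
          exact congrArg (cone (pick v s)) e1
        have h2 := bd_cone (pick v s) (sg s)
        have h3 : cone (pick v s) (sg s) = 0 := by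
          rw [cone, lift_sg, if_pos (pick_mem v hne)]
        rw [h1]
        rw [h3, map_zero, zero_add] at h2
        exact h2
  exact LinearMap.congr_fun h z

omit [DecidableEq α] in
/-- a chain on subsets of a small set is small -/
theorem card_support_le_pow {P : Finset α → Prop} {U : Finset α} {z : Ch α} (hz : z ∈ On P)
    (h : ∀ t, P t → t ⊆ U) : z.support.card ≤ 2 ^ U.card := by
  rw [← Finset.card_powerset]
  exact Finset.card_le_card fun t ht => Finset.mem_powerset.mpr (h t (hz ht))

theorem card_support_map_le (A : Ch α →ₗ[ZMod 2] Ch α) {L : ℕ} {z : Ch α}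
    (h : ∀ s ∈ z.support, (A (sg s)).support.card ≤ L) :
    (A z).support.card ≤ z.support.card * L := by
  conv_lhs => rw [← Finsupp.sum_single z, Finsupp.sum, map_sum]
  refine (Finset.card_le_card Finsupp.support_finsetSum).trans ?_
  refine Finset.card_biUnion_le_card_mul _ _ _ fun s hs => ?_
  have e : Finsupp.single s (z s) = z s • sg s := by simp [sg]
  rw [e, map_smul]
  exact (Finset.card_le_card Finsupp.support_smul).trans (h s hs)

end Vale.Agent.P067.Sub
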