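import Vale.Agent.P067.Sub.Homotopy

/-!
A set of `d + 1` points of cost below `d` has the boundary of a small chain of sets of cost `d`.
-/

namespace Vale.Agent.P067.Sub

open Finset

variable {n k N : ℕ} (e : Fin n ≃ (Fin k → Fin N))

/-- the number of coordinates in which a set varies -/
def varying (s : Finset (Fin n)) : ℕ := (univ.filter fun j => 2 ≤ (vals e s j).card).card

theorem varying_le_cost (s : Finset (Fin n)) : varying e s ≤ cost e s := by
  rw [varying, Finset.card_filter, cost]
  exact Finset.sum_le_sum fun j _ => by split_ifs <;> omega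

theorem exists_constant {s : Finset (Fin n)} {d : ℕ} (hs : cost e s < d) (hk : d ≤ k) :
    ∃ j, (vals e s j).card ≤ 1 := by
  by_contra h
  push Not at h
  have : varying e s = k := by
    rw [varying, Finset.filter_true_of_mem (p := fun j => 2 ≤ (vals e s j).card) fun j _ => h j,
      Finset.card_univ, Fintype.card_fin]
  have := varying_le_cost e s
  omega

theorem card_le_pow_cost (s : Finset (Fin n)) : s.card ≤ 2 ^ cost e s :=
  (Finset.card_le_card (subset_box e s)).trans (card_box_le e s)

theorem vals_insert (y : Fin n) (s : Finset (Fin n)) (j : Fin k) :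
    vals e (insert y s) j = insert (e y j) (vals e s j) := Finset.image_insert _ _ _

theorem exact_step {τ : Finset (Fin n)} {d : ℕ} (hk : d ≤ k) (hN : d < N)
    (hτ : τ.card = d + 1) (hc : cost e τ < d) :
    ∃ y, y ∉ τ ∧ ∀ x ∈ τ, (insert y (τ.erase x)).card = d + 1 ∧
      cost e (insert y (τ.erase x)) ≤ cost e τ + 1 ∧
      varying e τ + 1 ≤ varying e (insert y (τ.erase x)) := by
  classical
  have h3 : 3 ≤ τ.card := by
    by_contra h
    have hd : d ≤ 1 := by omega
    have h0 : cost e τ = 0 := by omega
    have := card_le_pow_cost e τ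
    rw [h0, pow_zero] at this
    omega
  have hne : ∀ x, (τ.erase x).Nonempty := fun x => by
    rw [← Finset.card_pos]
    have := Finset.pred_card_le_card_erase (s := τ) (a := x)
    omega
  obtain ⟨j₀, hj₀⟩ := exists_constant e hc hk
  obtain ⟨w, hw⟩ : ∃ w, w ∉ vals e τ j₀ := by
    by_contra h
    push Not at h
    have : vals e τ j₀ = univ := Finset.eq_univ_of_forall h
    rw [this, Finset.card_univ, Fintype.card_fin] at hj₀
    omega
  have hval : ∀ j, ∃ a ∈ vals e τ j, 2 ≤ (vals e τ j).card →
      ∀ x ∈ τ, ∀ b, vals e (τ.erase x) j = {b} → a ≠ b := by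
    intro j
    by_cases h : ∃ x ∈ τ, ∃ b, vals e (τ.erase x) j = {b}
    · obtain ⟨x, hx, b, hb⟩ := h
      refine ⟨e x j, Finset.mem_image_of_mem _ hx, fun h2 x' hx' b' hb' hEq => ?_⟩
      have hbb : b = b' := by
        obtain ⟨z, hz⟩ : ((τ.erase x).erase x').Nonempty := by
          rw [← Finset.card_pos]
          have := Finset.pred_card_le_card_erase (s := τ) (a := x)
          have := Finset.pred_card_le_card_erase (s := τ.erase x) (a := x')
          omega
        obtain ⟨hz1, hz2⟩ := Finset.mem_erase.mp hz
        have e1 : e z j ∈ vals e (τ.erase x) j := Finset.mem_image_of_mem _ hz2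
        have e2 : e z j ∈ vals e (τ.erase x') j := Finset.mem_image_of_mem _
          (Finset.mem_erase.mpr ⟨hz1, (Finset.mem_erase.mp hz2).2⟩)
        rw [hb, Finset.mem_singleton] at e1
        rw [hb', Finset.mem_singleton] at e2
        exact e1.symm.trans e2
      have he : vals e τ j = {b} := by
        conv_lhs => rw [← Finset.insert_erase hx]
        rw [vals_insert, hb, hEq, ← hbb]
        simp
      rw [he, Finset.card_singleton] at h2
      omega
    · obtain ⟨z, hz⟩ : τ.Nonempty := Finset.card_pos.mp (by omega)
      exact ⟨e z j, Finset.mem_image_of_mem _ hz, fun _ x hx b hb => absurd ⟨x, hx, b, hb⟩ h⟩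
  choose a ha hane using hval
  set y : Fin n := e.symm fun j => if j = j₀ then w else a j
  have hy : ∀ j, e y j = if j = j₀ then w else a j := fun j => by simp [y]
  have hy0 : y ∉ τ := fun h => hw (by
    have := Finset.mem_image_of_mem (fun x => e x j₀) h
    simpa [vals, hy] using this)
  refine ⟨y, hy0, fun x hx => ⟨?_, ?_, ?_⟩⟩
  · have := Finset.card_erase_add_one hx
    rw [Finset.card_insert_of_notMem fun h => hy0 (Finset.mem_of_mem_erase h)]
    omega
  · have hle : ∀ j, (vals e (insert y (τ.erase x)) j).card - 1 ≤
        ((vals e τ j).card - 1) + if j = j₀ then 1 else 0 := by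
      intro j
      rw [vals_insert, hy]
      have h2 := Finset.card_le_card (vals_mono e (Finset.erase_subset x τ) j)
      split_ifs with hj
      · have := Finset.card_insert_le w (vals e (τ.erase x) j)
        omega
      · have := Finset.card_le_card (Finset.insert_subset (ha j)
          (vals_mono e (Finset.erase_subset x τ) j))
        omega
    refine (Finset.sum_le_sum fun j _ => hle j).trans ?_
    rw [Finset.sum_add_distrib, Finset.sum_ite_eq' univ j₀ (fun _ => 1),
      if_pos (Finset.mem_univ _)]
    exact le_rfl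
  · have hsub : insert j₀ (univ.filter fun j => 2 ≤ (vals e τ j).card) ⊆
        univ.filter fun j => 2 ≤ (vals e (insert y (τ.erase x)) j).card := by
      intro j hj
      simp only [Finset.mem_filter, Finset.mem_univ, true_and]
      rw [vals_insert, hy]
      have hp : 0 < (vals e (τ.erase x) j).card := Finset.card_pos.mpr ((hne x).image _)
      split_ifs with hjj
      · rw [Finset.card_insert_of_notMem fun h => hw (by
          have := vals_mono e (Finset.erase_subset x τ) j h
          rwa [hjj] at this)]
        omega
      · have h2 : 2 ≤ (vals e τ j).card := by simpa [hjj] using hj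
        rcases Nat.lt_or_ge 1 (vals e (τ.erase x) j).card with h | h
        · exact le_trans h (Finset.card_le_card (Finset.subset_insert _ _))
        · obtain ⟨b, hb⟩ := Finset.card_eq_one.mp (le_antisymm h hp)
          rw [hb, Finset.card_insert_of_notMem
            (by simpa using hane j h2 x hx b hb), Finset.card_singleton]
    have h := Finset.card_le_card hsub
    rwa [Finset.card_insert_of_notMem (by
      simp only [Finset.mem_filter, Finset.mem_univ, true_and]; omega)] at h

theorem exists_exact {d : ℕ} (hk : d ≤ k) (hN : d < N) {τ : Finset (Fin n)}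
    (hτ : τ.card = d + 1) (hc : cost e τ ≤ d) :
    ∃ z : Ch (Fin n), z ∈ On (fun t => t.card = d + 1 ∧ cost e t = d) ∧
      bd z = bd (sg τ) ∧ z.support.card ≤ (d + 1) ^ d := by
  classical
  have key : ∀ m, ∀ τ : Finset (Fin n), τ.card = d + 1 → cost e τ ≤ d → d ≤ varying e τ + m →
      ∃ z : Ch (Fin n), z ∈ On (fun t => t.card = d + 1 ∧ cost e t = d) ∧
        bd z = bd (sg τ) ∧ z.support.card ≤ (d + 1) ^ m := by
    intro m
    induction m with
    | zero =>
      intro τ hτ hc hv
      have := varying_le_cost e τ
      refine ⟨sg τ, sg_mem ⟨hτ, by omega⟩, rfl, ?_⟩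
      exact (Finset.card_le_card Finsupp.support_single_subset).trans (by simp)
    | succ m ih =>
      intro τ hτ hc hv
      rcases Nat.lt_or_ge (cost e τ) d with hlt | hge
      · obtain ⟨y, hy, hstep⟩ := exact_step e hk hN hτ hlt
        have hex : ∀ x : ↥τ, ∃ z : Ch (Fin n),
            z ∈ On (fun t => t.card = d + 1 ∧ cost e t = d) ∧
              bd z = bd (sg (insert y (τ.erase x.1))) ∧ z.support.card ≤ (d + 1) ^ m := fun x => by
          obtain ⟨h1, h2, h3⟩ := hstep x.1 x.2
          exact ih _ h1 (by omega) (by omega)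
        choose z hz1 hz2 hz3 using hex
        refine ⟨∑ x, z x, Submodule.sum_mem _ fun x _ => hz1 x, ?_, ?_⟩
        · have e1 : ∑ x : ↥τ, sg (insert y (τ.erase x.1)) = cone y (bd (sg τ)) := by
            rw [bd_sg, map_sum, ← Finset.sum_coe_sort τ (fun x => cone y (sg (τ.erase x)))]
            refine Finset.sum_congr rfl fun x _ => ?_
            rw [cone, lift_sg, if_neg fun h => hy (Finset.mem_of_mem_erase h)]
          rw [map_sum, Finset.sum_congr rfl fun x _ => hz2 x, ← map_sum, e1]
          have h := bd_cone y (bd (sg τ))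
          rwa [bd_bd, map_zero, add_zero] at h
        · refine (Finset.card_le_card Finsupp.support_finsetSum).trans ?_
          refine (Finset.card_biUnion_le_card_mul _ _ _ fun x _ => hz3 x).trans ?_
          rw [Finset.card_univ, Fintype.card_coe, hτ, pow_succ, mul_comm]
      · refine ⟨sg τ, sg_mem ⟨hτ, by omega⟩, rfl, ?_⟩
        exact (Finset.card_le_card Finsupp.support_single_subset).trans (by
          rw [Finset.card_singleton]; exact Nat.one_le_pow _ _ (by omega))
  exact key d τ hτ hc (by omega)

/-- the homotopy with top sets of cost exactly `d` -/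
theorem exists_homotopy {d : ℕ} (hk : d ≤ k) (hN : d < N) (o : Fin n) {s : Finset (Fin n)}
    (hs : s.card ≤ d) (hcs : cost e s ≤ d) :
    ∃ z : Ch (Fin n),
      z ∈ On (fun t => t.card = s.card + 1 ∧ cost e t ≤ d ∧ (s.card = d → cost e t = d)) ∧
      bd z = bd (hom e o (sg s)) ∧
      z.support.card ≤ 2 ^ 2 ^ d * ((k + 3) * 2 ^ (2 * d)) * (d + 1) ^ d := by
  classical
  have h1 := card_support_hom e o hs hcs
  rcases Nat.lt_or_ge s.card d with hlt | hge
  · refine ⟨hom e o (sg s), On_mono (fun t ht => ⟨ht.1, ht.2, fun h => by omega⟩)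
      (hom_On e o hs hcs), rfl, h1.trans (Nat.le_mul_of_pos_right _ (by positivity))⟩
  · have hd : s.card = d := le_antisymm hs hge
    have hex : ∀ t : Finset (Fin n), ∃ z : Ch (Fin n), t ∈ (hom e o (sg s)).support →
        z ∈ On (fun u => u.card = d + 1 ∧ cost e u = d) ∧
          bd z = bd (sg t) ∧ z.support.card ≤ (d + 1) ^ d := fun t => by
      by_cases ht : t ∈ (hom e o (sg s)).support
      · obtain ⟨hc1, hc2⟩ := mem_On.mp (hom_On e o hs hcs) t ht
        obtain ⟨z, hz⟩ := exists_exact e hk hN (τ := t) (by omega) hc2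
        exact ⟨z, fun _ => hz⟩
      · exact ⟨0, fun h => absurd h ht⟩
    choose z hz using hex
    refine ⟨∑ t ∈ (hom e o (sg s)).support, (hom e o (sg s)) t • z t,
      Submodule.sum_mem _ fun t ht => Submodule.smul_mem _ _
        (On_mono (fun u hu => ⟨by omega, hu.2.le, fun _ => hu.2⟩) (hz t ht).1), ?_, ?_⟩
    · conv_rhs => rw [← Finsupp.sum_single (hom e o (sg s)), Finsupp.sum, map_sum]
      rw [map_sum]
      refine Finset.sum_congr rfl fun t ht => ?_
      rw [map_smul, (hz t ht).2.1, ← map_smul]
      simp [sg]
    · refine (Finset.card_le_card Finsupp.support_finsetSum).trans ?_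
      refine (Finset.card_biUnion_le_card_mul _ _ ((d + 1) ^ d) fun t ht => ?_).trans
        (Nat.mul_le_mul_right _ h1)
      exact (Finset.card_le_card Finsupp.support_smul).trans (hz t ht).2.2

end Vale.Agent.P067.Sub
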