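import Vale.Agent.P067.Defs
import Vale.Agent.P067.Sub.Exact

/-!
The complex of sets of cost `d`: its degree, its faces and its orbits under permutations of the
values in each coordinate.
-/

namespace Vale.Agent.P067.Sub

open Finset

variable {n k N : ℕ} (e : Fin n ≃ (Fin k → Fin N))

/-- the top faces -/
def tops (d : ℕ) : Finset (Finset (Fin n)) :=
  univ.filter fun t => t.card = d + 1 ∧ cost e t = d

theorem mem_tops {d : ℕ} {t : Finset (Fin n)} :
    t ∈ tops e d ↔ t.card = d + 1 ∧ cost e t = d := by simp [tops]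

theorem vals_nonempty {s : Finset (Fin n)} (hs : s.Nonempty) (j : Fin k) :
    (vals e s j).Nonempty := hs.image _

theorem card_box_eq (s : Finset (Fin n)) : (box e s).card = ∏ j, (vals e s j).card := by
  rw [← Fintype.card_piFinset]
  exact Finset.card_equiv e fun x => by simp [mem_box, Fintype.mem_piFinset]

theorem sum_le_prod {ι : Type*} (S : Finset ι) (a : ι → ℕ) (ha : ∀ i ∈ S, 1 ≤ a i) :
    (∑ i ∈ S, (a i - 1)) + 1 ≤ ∏ i ∈ S, a i := by
  classical
  induction S using Finset.induction_on with
  | empty => simp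
  | @insert i T hi ih =>
    rw [Finset.sum_insert hi, Finset.prod_insert hi]
    have h1 := ih fun j hj => ha j (Finset.mem_insert_of_mem hj)
    obtain ⟨b, hb⟩ : ∃ b, a i = b + 1 := ⟨a i - 1, by have := ha i (Finset.mem_insert_self i T); omega⟩
    rw [hb, Nat.add_sub_cancel]
    have hP : 1 ≤ ∏ j ∈ T, a j := le_trans (Nat.le_add_left 1 _) h1
    nlinarith [Nat.mul_le_mul_left b hP]

theorem exists_top {d : ℕ} (hk : d ≤ k) (hN : d < N) {s : Finset (Fin n)} (hne : s.Nonempty)
    (hs : s.card ≤ d) (hc : cost e s ≤ d) : ∃ T ∈ tops e d, s ⊆ T := by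
  classical
  obtain ⟨s', hss, hs', hc'⟩ : ∃ s', s ⊆ s' ∧ s'.card ≤ d + 1 ∧ cost e s' = d := by
    rcases Nat.lt_or_ge (cost e s) d with hlt | hge
    swap
    · exact ⟨s, Finset.Subset.refl _, by omega, by omega⟩
    obtain ⟨A, -, hA⟩ := Finset.exists_subset_card_eq
      (s := (univ : Finset (Fin k))) (n := d - cost e s) (by
        rw [Finset.card_univ, Fintype.card_fin]; omega)
    obtain ⟨x, hx⟩ := hne
    have hw : ∀ j, ∃ w, w ∉ vals e s j := fun j => by
      by_contra h
      push Not at h
      have h1 : (vals e s j).card ≤ s.card := Finset.card_image_le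
      rw [Finset.eq_univ_of_forall h, Finset.card_univ, Fintype.card_fin] at h1
      omega
    choose w hw using hw
    set y : Fin n := e.symm fun j => if j ∈ A then w j else e x j
    have hy : ∀ j, e y j = if j ∈ A then w j else e x j := fun j => by simp [y]
    refine ⟨insert y s, Finset.subset_insert _ _,
      (Finset.card_insert_le _ _).trans (by omega), ?_⟩
    have he : ∀ j, (vals e (insert y s) j).card - 1 =
        ((vals e s j).card - 1) + if j ∈ A then 1 else 0 := fun j => by
      rw [vals_insert, hy]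
      split_ifs with hj
      · rw [Finset.card_insert_of_notMem (hw j)]
        have := Finset.card_pos.mpr (vals_nonempty e ⟨x, hx⟩ j)
        omega
      · have hm : e x j ∈ vals e s j := Finset.mem_image_of_mem _ hx
        rw [Finset.insert_eq_of_mem hm, add_zero]
    rw [cost, Finset.sum_congr rfl fun j _ => he j, Finset.sum_add_distrib, Finset.sum_boole,
      Finset.filter_mem_eq_inter, Finset.univ_inter, Nat.cast_id, hA]
    show cost e s + (d - cost e s) = d
    omega
  have hbox : d + 1 ≤ (box e s').card := by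
    rw [card_box_eq, ← hc']
    exact sum_le_prod _ _ fun j _ => Finset.card_pos.mpr (vals_nonempty e (hne.mono hss) j)
  obtain ⟨T, hT1, hT2, hT3⟩ := Finset.exists_subsuperset_card_eq (subset_box e s') hs' hbox
  refine ⟨T, (mem_tops e).mpr ⟨hT3, ?_⟩, hss.trans hT1⟩
  exact le_antisymm ((cost_le_of_vals e (vals_subset e hT2)).trans hc'.le)
    (hc'.ge.trans (cost_le_of_vals e (vals_mono e hT1)))

theorem tops_pure {d : ℕ} (hd : 1 ≤ d) (hk : d ≤ k) (hN : d < N) : IsPure d (tops e d) := by
  refine ⟨fun t ht => ((mem_tops e).mp ht).1, fun v => ?_⟩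
  obtain ⟨T, hT, hvT⟩ := exists_top e hk hN (Finset.singleton_nonempty v)
    (by simpa using hd) (by rw [cost_card_le_one e (by simp)]; omega)
  exact ⟨T, hT, Finset.singleton_subset_iff.mp hvT⟩

theorem mem_faces_tops {d i : ℕ} (hk : d ≤ k) (hN : d < N) {t : Finset (Fin n)}
    (hcard : t.card = i + 1) (hi : i ≤ d) (hc : cost e t ≤ d)
    (htop : i = d → cost e t = d) : t ∈ faces (tops e d) i := by
  simp only [faces, Finset.mem_biUnion, Finset.mem_powersetCard]
  rcases eq_or_lt_of_le hi with h | h
  · exact ⟨t, (mem_tops e).mpr ⟨by omega, htop h⟩, Finset.Subset.refl _, hcard⟩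
  · obtain ⟨T, hT, htT⟩ := exists_top e hk hN (Finset.card_pos.mp (by omega)) (by omega) hc
    exact ⟨T, hT, htT, hcard⟩

theorem of_mem_faces_tops {d i : ℕ} {t : Finset (Fin n)} (ht : t ∈ faces (tops e d) i) :
    t.card = i + 1 ∧ cost e t ≤ d := by
  simp only [faces, Finset.mem_biUnion, Finset.mem_powersetCard] at ht
  obtain ⟨T, hT, htT, hcard⟩ := ht
  exact ⟨hcard, (cost_le_of_vals e (vals_mono e htT)).trans ((mem_tops e).mp hT).2.le⟩

/-- the coordinate values a top face has besides those of one of its vertices -/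
def others (v : Fin n) (T : Finset (Fin n)) : Finset (Fin k × Fin N) :=
  univ.filter fun p => p.2 ∈ (vals e T p.1).erase (e v p.1)

theorem tops_degree (d : ℕ) : DegreeLE (2 ^ 2 ^ d * (k * N) ^ d) (tops e d) := by
  classical
  intro v
  have hmaps : ∀ T ∈ (tops e d).filter (fun T => v ∈ T),
      others e v T ∈ (univ : Finset (Fin k × Fin N)).powersetCard d := by
    intro T hT
    obtain ⟨hT1, hvT⟩ := Finset.mem_filter.mp hT
    refine Finset.mem_powersetCard.mpr ⟨Finset.subset_univ _, ?_⟩
    rw [← ((mem_tops e).mp hT1).2, cost, others, Finset.card_filter, Fintype.sum_prod_type]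
    refine Finset.sum_congr rfl fun j _ => ?_
    dsimp only
    have hm : e v j ∈ vals e T j := Finset.mem_image_of_mem _ hvT
    rw [Finset.sum_boole, Finset.filter_mem_eq_inter, Finset.univ_inter, Nat.cast_id,
      Finset.card_erase_of_mem hm]
  refine (Finset.card_le_mul_card_image_of_maps_to hmaps (2 ^ 2 ^ d) ?_).trans ?_
  · intro P _
    rcases ((tops e d).filter (fun T => v ∈ T) |>.filter (fun T => others e v T = P)).eq_empty_or_nonempty
      with h | ⟨T₀, hT₀⟩
    · rw [h]; simp
    obtain ⟨hT₀, hP₀⟩ := Finset.mem_filter.mp hT₀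
    obtain ⟨hT₀1, hvT₀⟩ := Finset.mem_filter.mp hT₀
    calc _ ≤ (box e T₀).powerset.card := Finset.card_le_card fun T hT => by
          obtain ⟨hT, hP⟩ := Finset.mem_filter.mp hT
          obtain ⟨-, hvT⟩ := Finset.mem_filter.mp hT
          refine Finset.mem_powerset.mpr fun x hx => (mem_box e).mpr fun j => ?_
          rcases eq_or_ne (e x j) (e v j) with h | h
          · rw [h]; exact Finset.mem_image_of_mem _ hvT₀
          · have hm : (j, e x j) ∈ others e v T := by
              simp only [others, Finset.mem_filter, Finset.mem_univ, true_and, Finset.mem_erase]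
              exact ⟨h, Finset.mem_image_of_mem _ hx⟩
            rw [hP, ← hP₀] at hm
            simp only [others, Finset.mem_filter, Finset.mem_univ, true_and, Finset.mem_erase] at hm
            exact hm.2
      _ ≤ 2 ^ 2 ^ d := by
          rw [Finset.card_powerset]
          refine Nat.pow_le_pow_right (by norm_num) ((card_box_le e T₀).trans ?_)
          rw [((mem_tops e).mp hT₀1).2]
  · rw [Finset.card_powersetCard, Finset.card_univ, Fintype.card_prod, Fintype.card_fin,
      Fintype.card_fin]
    exact Nat.mul_le_mul_left _ (Nat.choose_le_pow _ _)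

theorem card_tops_le (d : ℕ) : (tops e d).card ≤ n * (2 ^ 2 ^ d * (k * N) ^ d) := by
  classical
  calc (tops e d).card
      ≤ (univ.biUnion fun v => (tops e d).filter fun T => v ∈ T).card :=
        Finset.card_le_card fun T hT => by
          obtain ⟨v, hv⟩ : T.Nonempty := Finset.card_pos.mp (by
            rw [((mem_tops e).mp hT).1]; omega)
          exact Finset.mem_biUnion.mpr ⟨v, Finset.mem_univ _, Finset.mem_filter.mpr ⟨hT, hv⟩⟩
    _ ≤ (univ : Finset (Fin n)).card * _ :=
        Finset.card_biUnion_le_card_mul _ _ _ fun v _ => tops_degree e d v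
    _ = n * (2 ^ 2 ^ d * (k * N) ^ d) := by rw [Finset.card_univ, Fintype.card_fin]

/-- permute the values in each coordinate -/
def act (g : Fin k → Equiv.Perm (Fin N)) : Equiv.Perm (Fin n) :=
  e.trans ((Equiv.piCongrRight g).trans e.symm)

theorem act_apply (g : Fin k → Equiv.Perm (Fin N)) (x : Fin n) (j : Fin k) :
    e (act e g x) j = g j (e x j) := by simp [act]

theorem act_mul (g h : Fin k → Equiv.Perm (Fin N)) (x : Fin n) :
    act e (g * h) x = act e g (act e h x) :=
  e.injective (funext fun j => by simp [act_apply])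

/-- the image of a set -/
def actSet (g : Fin k → Equiv.Perm (Fin N)) (s : Finset (Fin n)) : Finset (Fin n) :=
  (act e g).finsetCongr s

theorem actSet_eq (g : Fin k → Equiv.Perm (Fin N)) (s : Finset (Fin n)) :
    actSet e g s = s.map (act e g).toEmbedding := rfl

theorem actSet_mul (g h : Fin k → Equiv.Perm (Fin N)) (s : Finset (Fin n)) :
    actSet e (g * h) s = actSet e g (actSet e h s) := by
  simp only [actSet_eq, Finset.map_map]
  congr 1
  ext x
  simp [act_mul]

theorem vals_actSet (g : Fin k → Equiv.Perm (Fin N)) (s : Finset (Fin n)) (j : Fin k) :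
    vals e (actSet e g s) j = (vals e s j).image (g j) := by
  rw [actSet_eq, vals, vals, Finset.image_image, Finset.map_eq_image, Finset.image_image]
  exact Finset.image_congr fun x _ => by simp [act_apply]

theorem cost_actSet (g : Fin k → Equiv.Perm (Fin N)) (s : Finset (Fin n)) :
    cost e (actSet e g s) = cost e s :=
  Finset.sum_congr rfl fun j _ => by
    rw [vals_actSet, Finset.card_image_of_injective _ (g j).injective]

theorem actSet_mem_tops {d : ℕ} (g : Fin k → Equiv.Perm (Fin N)) {T : Finset (Fin n)} :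
    actSet e g T ∈ tops e d ↔ T ∈ tops e d := by
  rw [mem_tops, mem_tops, cost_actSet, actSet_eq, Finset.card_map]

theorem card_tops_actSet {d : ℕ} (g : Fin k → Equiv.Perm (Fin N)) (s : Finset (Fin n)) :
    ((tops e d).filter fun T => actSet e g s ⊆ T).card =
      ((tops e d).filter fun T => s ⊆ T).card := by
  symm
  refine Finset.card_equiv (act e g).finsetCongr fun T => ?_
  simp only [Finset.mem_filter]
  exact and_congr (actSet_mem_tops e g).symm (Finset.map_subset_map (f := (act e g).toEmbedding)).symm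

/-- the orbit of a set -/
noncomputable def orbit (s : Finset (Fin n)) : Finset (Finset (Fin n)) :=
  univ.image fun g => actSet e g s

theorem fiber_mul_orbit (s : Finset (Fin n)) (g₀ : Fin k → Equiv.Perm (Fin N)) :
    (univ.filter fun g => actSet e g s = actSet e g₀ s).card * (orbit e s).card
      = Fintype.card (Fin k → Equiv.Perm (Fin N)) := by
  classical
  rw [← Finset.card_univ (α := Fin k → Equiv.Perm (Fin N)),
    Finset.card_eq_sum_card_image (fun g => actSet e g s) univ, mul_comm, ← smul_eq_mul]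
  refine (Finset.sum_eq_card_nsmul fun s' hs' => ?_).symm
  obtain ⟨g₁, -, rfl⟩ := Finset.mem_image.mp hs'
  refine Finset.card_equiv (Equiv.mulLeft (g₀ * g₁⁻¹)) fun g => ?_
  simp only [Finset.mem_filter, Finset.mem_univ, true_and, Equiv.coe_mulLeft]
  constructor
  · intro h
    rw [actSet_mul, h, ← actSet_mul, inv_mul_cancel_right]
  · intro h
    have h2 := congrArg (actSet e (g₁ * g₀⁻¹)) h
    rw [← actSet_mul, ← actSet_mul, inv_mul_cancel_right] at h2
    rwa [show g₁ * g₀⁻¹ * (g₀ * g₁⁻¹ * g) = g by group] at h2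

theorem pow_le_descFactorial {d : ℕ} (hN : d < N) : ∀ a, a ≤ d + 1 → 1 ≤ a →
    N ^ a ≤ (d + 1) ^ (a - 1) * N.descFactorial a := by
  intro a
  induction a with
  | zero => intro _ h; omega
  | succ a ih =>
    intro h _
    rcases Nat.eq_zero_or_pos a with rfl | hpos
    · simp
    · have hN' : N ≤ (d + 1) * (N - a) := by
        obtain ⟨r, hr⟩ : ∃ r, N = a + r + 1 := ⟨N - a - 1, by omega⟩
        obtain ⟨q, hq⟩ : ∃ q, d = a + q := ⟨d - a, by omega⟩
        have hqr : q ≤ r := by omega
        rw [hr, show a + r + 1 - a = r + 1 by omega, hq]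
        nlinarith
      calc N ^ (a + 1) = N ^ a * N := pow_succ _ _
        _ ≤ ((d + 1) ^ (a - 1) * N.descFactorial a) * ((d + 1) * (N - a)) :=
            Nat.mul_le_mul (ih (by omega) hpos) hN'
        _ = (d + 1) ^ (a - 1 + 1) * N.descFactorial (a + 1) := by
            rw [Nat.descFactorial_succ, pow_succ]; ring
        _ = (d + 1) ^ (a + 1 - 1) * N.descFactorial (a + 1) := by
            rw [show a - 1 + 1 = a + 1 - 1 by omega]

theorem pow_le_orbit {d : ℕ} (hN : d < N) {T : Finset (Fin n)} (hT : T ∈ tops e d) :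
    N ^ (k + d) ≤ (d + 1) ^ d * (d + 1) ^ (d + 1) * (orbit e T).card := by
  classical
  obtain ⟨hcard, hcost⟩ := (mem_tops e).mp hT
  have hTne : T.Nonempty := Finset.card_pos.mp (by omega)
  set f : ((j : Fin k) → (↥(vals e T j) ↪ Fin N)) → (↥T → Fin n) := fun φ x =>
    e.symm fun j => φ j ⟨e x.1 j, Finset.mem_image_of_mem _ x.2⟩
  have hf : Function.Injective f := by
    intro φ ψ h
    funext j
    ext ⟨a, ha⟩
    obtain ⟨x, hx, rfl⟩ := Finset.mem_image.mp ha
    have h2 := congrFun (e.symm.injective (congrFun h ⟨x, hx⟩)) j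
    exact congrArg Fin.val h2
  have hrange : ∀ φ, f φ ∈ (orbit e T).biUnion fun T' => Fintype.piFinset fun _ : ↥T => T' := by
    intro φ
    refine Finset.mem_biUnion.mpr ⟨actSet e
      (fun j => Equiv.extendSubtype (Equiv.ofInjective (φ j) (φ j).injective)) T,
      Finset.mem_image_of_mem _ (Finset.mem_univ _), Fintype.mem_piFinset.mpr fun x => ?_⟩
    rw [actSet_eq, Finset.mem_map]
    refine ⟨x.1, x.2, e.injective (funext fun j => ?_)⟩
    show e (act e _ x.1) j = _
    rw [act_apply]
    have hm : e x.1 j ∈ vals e T j := Finset.mem_image_of_mem _ x.2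
    refine (Equiv.extendSubtype_apply_of_mem _ _ hm).trans ?_
    simp [f]
  have h1 : (∏ j, N.descFactorial (vals e T j).card)
      ≤ (orbit e T).card * (d + 1) ^ (d + 1) := by
    calc (∏ j, N.descFactorial (vals e T j).card)
        = (univ : Finset ((j : Fin k) → (↥(vals e T j) ↪ Fin N))).card := by
          rw [Finset.card_univ, Fintype.card_pi]
          exact Finset.prod_congr rfl fun j _ => by simp
      _ ≤ ((orbit e T).biUnion fun T' => Fintype.piFinset fun _ : ↥T => T').card :=
          Finset.card_le_card_of_injOn f (fun φ _ => hrange φ) hf.injOn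
      _ ≤ (orbit e T).card * (d + 1) ^ (d + 1) := by
          refine Finset.card_biUnion_le_card_mul _ _ _ fun T' hT' => le_of_eq ?_
          obtain ⟨g, -, rfl⟩ := Finset.mem_image.mp hT'
          simp [Fintype.card_piFinset, actSet_eq, hcard]
  have h2 : N ^ (k + d) ≤ (d + 1) ^ d * ∏ j, N.descFactorial (vals e T j).card := by
    have hsum : ∑ j, (vals e T j).card = k + d := by
      rw [Finset.sum_congr rfl fun j _ =>
        (Nat.sub_add_cancel (Finset.card_pos.mpr (vals_nonempty e hTne j))).symm,
        Finset.sum_add_distrib]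
      show cost e T + _ = _
      rw [hcost]
      simp [add_comm]
    rw [← hsum, ← Finset.prod_pow_eq_pow_sum]
    have hd' : (d + 1) ^ d = ∏ j, (d + 1) ^ ((vals e T j).card - 1) := by
      rw [Finset.prod_pow_eq_pow_sum]
      exact (congrArg ((d + 1) ^ ·) hcost).symm
    rw [hd', ← Finset.prod_mul_distrib]
    refine Finset.prod_le_prod' fun j _ => pow_le_descFactorial hN _ ?_ ?_
    · exact Finset.card_image_le.trans hcard.le
    · exact Finset.card_pos.mpr (vals_nonempty e hTne j)
  calc N ^ (k + d) ≤ (d + 1) ^ d * ((orbit e T).card * (d + 1) ^ (d + 1)) :=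
        h2.trans (Nat.mul_le_mul_left _ h1)
    _ = (d + 1) ^ d * (d + 1) ^ (d + 1) * (orbit e T).card := by ring

/-- sets are rarely moved to a face of small weight -/
theorem fiber_le_weight {d i : ℕ} (hN : d < N) (hi : i ≤ d)
    {s t : Finset (Fin n)} (ht : t ∈ faces (tops e d) i) :
    ((univ.filter fun g => actSet e g s = t).card : ℝ) ≤
      ((2 ^ 2 ^ d * k ^ d * ((d + 1) ^ d * (d + 1) ^ (d + 1)) * 2 ^ (d + 1) : ℕ) : ℝ) *
        Fintype.card (Fin k → Equiv.Perm (Fin N)) * weight d (tops e d) i t := by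
  classical
  set K := 2 ^ 2 ^ d * k ^ d * ((d + 1) ^ d * (d + 1) ^ (d + 1)) with hK
  simp only [faces, Finset.mem_biUnion, Finset.mem_powersetCard] at ht
  obtain ⟨T, hT, htT, -⟩ := ht
  rcases (univ.filter fun g => actSet e g s = t).eq_empty_or_nonempty with h | ⟨g₀, hg₀⟩
  · rw [h, Finset.card_empty, Nat.cast_zero, weight]
    positivity
  have hg : actSet e g₀ s = t := (Finset.mem_filter.mp hg₀).2
  subst hg
  set m := ((tops e d).filter fun T => actSet e g₀ s ⊆ T).card with hm
  have hn : n = N ^ k := by simpa using Fintype.card_congr e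
  have h1 : (orbit e T).card ≤ (orbit e s).card * m := by
    refine (Finset.card_le_card (t := (orbit e s).biUnion fun s' =>
      (tops e d).filter fun T' => s' ⊆ T') fun T' hT' => ?_).trans
      (Finset.card_biUnion_le_card_mul _ _ _ fun s' hs' => ?_)
    · obtain ⟨g, -, rfl⟩ := Finset.mem_image.mp hT'
      refine Finset.mem_biUnion.mpr ⟨actSet e (g * g₀) s,
        Finset.mem_image_of_mem _ (Finset.mem_univ _),
        Finset.mem_filter.mpr ⟨(actSet_mem_tops e g).mpr hT, ?_⟩⟩
      rw [actSet_mul]
      exact Finset.map_subset_map.mpr htT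
    · obtain ⟨g, -, rfl⟩ := Finset.mem_image.mp hs'
      rw [hm, card_tops_actSet, card_tops_actSet]
  have h2 : (tops e d).card ≤ K * ((orbit e s).card * m) := by
    calc (tops e d).card ≤ n * (2 ^ 2 ^ d * (k * N) ^ d) := card_tops_le e d
      _ = 2 ^ 2 ^ d * k ^ d * N ^ (k + d) := by rw [hn, mul_pow, pow_add]; ring
      _ ≤ 2 ^ 2 ^ d * k ^ d * ((d + 1) ^ d * (d + 1) ^ (d + 1) * (orbit e T).card) :=
          Nat.mul_le_mul_left _ (pow_le_orbit e hN hT)
      _ ≤ 2 ^ 2 ^ d * k ^ d * ((d + 1) ^ d * (d + 1) ^ (d + 1) * ((orbit e s).card * m)) :=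
          Nat.mul_le_mul_left _ (Nat.mul_le_mul_left _ h1)
      _ = K * ((orbit e s).card * m) := by rw [hK]; ring
  have h3 := fiber_mul_orbit e s g₀
  have h4 : (univ.filter fun g => actSet e g s = actSet e g₀ s).card *
      ((d + 1).choose (i + 1) * (tops e d).card) ≤
      K * 2 ^ (d + 1) * Fintype.card (Fin k → Equiv.Perm (Fin N)) * m := by
    rw [← h3]
    calc _ ≤ (univ.filter fun g => actSet e g s = actSet e g₀ s).card *
          (2 ^ (d + 1) * (K * ((orbit e s).card * m))) :=
          Nat.mul_le_mul_left _ (Nat.mul_le_mul (Nat.choose_le_two_pow _ _) h2)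
      _ = _ := by ring
  have hpos : (0 : ℝ) < ((d + 1).choose (i + 1) : ℝ) * ((tops e d).card : ℝ) :=
    mul_pos (by exact_mod_cast Nat.choose_pos (by omega))
      (by exact_mod_cast Finset.card_pos.mpr ⟨T, hT⟩)
  rw [weight, mul_div_assoc', le_div_iff₀ hpos, ← hm]
  exact_mod_cast h4

end Vale.Agent.P067.Sub
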