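import Vale.Agent.P067.Sub.Chain

/-!
A contracting homotopy of small size for the sets of points of a grid that vary little.
-/

namespace Vale.Agent.P067.Sub

open Finset

variable {n k N : ℕ} (e : Fin n ≃ (Fin k → Fin N))

/-- the values of a set of points in one coordinate -/
def vals (s : Finset (Fin n)) (j : Fin k) : Finset (Fin N) := s.image fun x => e x j

/-- the number of values a set takes beyond one, summed over the coordinates -/
def cost (s : Finset (Fin n)) : ℕ := ∑ j, ((vals e s j).card - 1)

/-- the points using only values of a set -/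
def box (s : Finset (Fin n)) : Finset (Fin n) := univ.filter fun x => ∀ j, e x j ∈ vals e s j

theorem mem_box {s : Finset (Fin n)} {x : Fin n} : x ∈ box e s ↔ ∀ j, e x j ∈ vals e s j := by
  simp [box]

theorem subset_box (s : Finset (Fin n)) : s ⊆ box e s :=
  fun _ hx => (mem_box e).mpr fun _ => Finset.mem_image_of_mem _ hx

theorem vals_subset {t s : Finset (Fin n)} (h : t ⊆ box e s) (j : Fin k) :
    vals e t j ⊆ vals e s j := by
  intro a ha
  obtain ⟨x, hx, rfl⟩ := Finset.mem_image.mp ha
  exact (mem_box e).mp (h hx) j

theorem vals_mono {t s : Finset (Fin n)} (h : t ⊆ s) (j : Fin k) : vals e t j ⊆ vals e s j :=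
  Finset.image_subset_image h

theorem cost_le_of_vals {t s : Finset (Fin n)} (h : ∀ j, vals e t j ⊆ vals e s j) :
    cost e t ≤ cost e s :=
  Finset.sum_le_sum fun j _ => Nat.sub_le_sub_right (Finset.card_le_card (h j)) 1

theorem box_mono {t s : Finset (Fin n)} (h : t ⊆ s) : box e t ⊆ box e s :=
  fun _ hx => (mem_box e).mpr fun j => vals_mono e h j ((mem_box e).mp hx j)

theorem cost_card_le_one {s : Finset (Fin n)} (h : s.card ≤ 1) : cost e s = 0 :=
  Finset.sum_eq_zero fun j _ => by
    have : (vals e s j).card ≤ s.card := Finset.card_image_le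
    omega

theorem card_box_le (s : Finset (Fin n)) : (box e s).card ≤ 2 ^ cost e s := by
  calc (box e s).card ≤ (Fintype.piFinset (vals e s)).card :=
        Finset.card_le_card_of_injOn (fun x => e x)
          (fun x hx => Fintype.mem_piFinset.mpr ((mem_box e).mp hx)) e.injective.injOn
    _ = ∏ j, (vals e s j).card := Fintype.card_piFinset _
    _ ≤ ∏ j, 2 ^ ((vals e s j).card - 1) := Finset.prod_le_prod' fun j _ => by
        have h1 : (vals e s j).card - 1 < 2 ^ ((vals e s j).card - 1) := Nat.lt_two_pow_self
        omega
    _ = 2 ^ cost e s := Finset.prod_pow_eq_pow_sum _ _ _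

/-- put the first `j` coordinates to those of `o` -/
def shift (o : Fin n) (j : ℕ) (x : Fin n) : Fin n :=
  e.symm fun i => if (i : ℕ) < j then e o i else e x i

theorem shift_zero (o : Fin n) : shift e o 0 = id := by
  funext x
  simp [shift]

theorem shift_last (o x : Fin n) : shift e o k x = o := by
  simp [shift]

/-- the filler moving everything to `o` coordinate by coordinate -/
noncomputable def fill (o : Fin n) : Ch (Fin n) →ₗ[ZMod 2] Ch (Fin n) :=
  (∑ j ∈ range k, prism o (shift e o j) (shift e o (j + 1))) +
    (cone o).comp (push o (shift e o k))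

theorem fill_filler (o : Fin n) : IsFiller (fill e o) := by
  intro z
  have key : ∀ m, bd ((∑ j ∈ range m, prism o (shift e o j) (shift e o (j + 1))) z) +
      (∑ j ∈ range m, prism o (shift e o j) (shift e o (j + 1))) (bd z) =
        z + push o (shift e o m) z := by
    intro m
    induction m with
    | zero => simp [shift_zero, push_id, add_self']
    | succ m ih =>
      rw [Finset.sum_range_succ, LinearMap.add_apply, LinearMap.add_apply, map_add,
        add_add_add_comm, ih, bd_prism, add_assoc, ← add_assoc (push o (shift e o m) z),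
        add_self', zero_add]
  simp only [fill, LinearMap.add_apply, map_add, LinearMap.comp_apply]
  rw [add_add_add_comm, key k, ← bd_push, bd_cone, add_assoc, add_self', add_zero]

/-- what the filler does to one set -/
def FillOut (o : Fin n) (t u : Finset (Fin n)) : Prop :=
  u.card = t.card + 1 ∧ cost e u ≤ cost e t + 1 ∧
    ∀ i, vals e u i ⊆ insert (e o i) (vals e t i)

theorem prism_out (o : Fin n) (j : ℕ) {t u : Finset (Fin n)}
    (hu : u ⊆ t.image (shift e o j) ∪ t.image (shift e o (j + 1)) ∧ u.card = t.card + 1) :
    FillOut e o t u := by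
  have hv : ∀ i : Fin k, ∀ a ∈ vals e u i,
      a = e o i ∨ (j ≤ (i : ℕ) ∧ a ∈ vals e t i) := by
    intro i a ha
    obtain ⟨y, hy, rfl⟩ := Finset.mem_image.mp ha
    rcases Finset.mem_union.mp (hu.1 hy) with h | h
    all_goals
      obtain ⟨x, hx, rfl⟩ := Finset.mem_image.mp h
      simp only [shift, Equiv.apply_symm_apply]
      split_ifs with hi
      · exact Or.inl rfl
      · exact Or.inr ⟨by omega, Finset.mem_image_of_mem _ hx⟩
  have hv' : ∀ i : Fin k, j < (i : ℕ) → vals e u i ⊆ vals e t i := by
    intro i hi a ha
    obtain ⟨y, hy, rfl⟩ := Finset.mem_image.mp ha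
    rcases Finset.mem_union.mp (hu.1 hy) with h | h
    all_goals
      obtain ⟨x, hx, rfl⟩ := Finset.mem_image.mp h
      simp only [shift, Equiv.apply_symm_apply]
      rw [if_neg (by omega)]
      exact Finset.mem_image_of_mem _ hx
  have hins : ∀ i, vals e u i ⊆ insert (e o i) (vals e t i) := fun i a ha => by
    rcases hv i a ha with h | h
    · exact Finset.mem_insert.mpr (Or.inl h)
    · exact Finset.mem_insert.mpr (Or.inr h.2)
  refine ⟨hu.2, ?_, hins⟩
  have hle : ∀ i : Fin k, (vals e u i).card - 1 ≤
      ((vals e t i).card - 1) + if (i : ℕ) = j then 1 else 0 := by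
    intro i
    rcases lt_trichotomy (i : ℕ) j with h | h | h
    · have : vals e u i ⊆ {e o i} := fun a ha => by
        rcases hv i a ha with h' | h'
        · exact Finset.mem_singleton.mpr h'
        · omega
      have := Finset.card_le_card this
      rw [Finset.card_singleton] at this
      omega
    · have := (Finset.card_le_card (hins i)).trans (Finset.card_insert_le _ _)
      rw [if_pos h]
      omega
    · have := Finset.card_le_card (hv' i h)
      omega
  refine (Finset.sum_le_sum fun i _ => hle i).trans ?_
  rw [Finset.sum_add_distrib]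
  refine Nat.add_le_add_left ?_ _
  rw [Finset.sum_boole, Nat.cast_id]
  refine Finset.card_le_one.mpr fun a ha b hb => ?_
  simp only [Finset.mem_filter, Finset.mem_univ, true_and] at ha hb
  exact Fin.ext (ha.trans hb.symm)

theorem fill_On (o : Fin n) (t : Finset (Fin n)) :
    fill e o (sg t) ∈ On (FillOut e o t) := by
  simp only [fill, LinearMap.add_apply, LinearMap.coe_sum, Finset.sum_apply, LinearMap.comp_apply]
  refine Submodule.add_mem _ (Submodule.sum_mem _ fun j _ =>
    On_mono (fun u hu => prism_out e o j hu) (prism_On _ _ _ _)) ?_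
  refine cone_On o (fun s hs hc => ?_) (push_On _ _ _)
  have hsub : insert o s ⊆ {o} := by
    refine Finset.insert_subset (Finset.mem_singleton_self o) (hs.1.trans ?_)
    intro y hy
    obtain ⟨x, _, rfl⟩ := Finset.mem_image.mp hy
    exact Finset.mem_singleton.mpr (shift_last e o x)
  refine ⟨by rw [Finset.card_insert_of_notMem hc, hs.2], ?_, fun i a ha => ?_⟩
  · rw [cost_card_le_one e (by simpa using Finset.card_le_card hsub)]
    exact Nat.zero_le _
  · obtain ⟨y, hy, rfl⟩ := Finset.mem_image.mp ha
    rw [Finset.mem_singleton.mp (hsub hy)]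
    exact Finset.mem_insert_self _ _

theorem card_support_fill (o : Fin n) {t : Finset (Fin n)} {d : ℕ} (ht : t.card ≤ d) :
    (fill e o (sg t)).support.card ≤ (k + 2) * 2 ^ (2 * d) := by
  classical
  simp only [fill, LinearMap.add_apply, LinearMap.coe_sum, Finset.sum_apply, LinearMap.comp_apply]
  refine (Finset.card_le_card Finsupp.support_add).trans ((Finset.card_union_le _ _).trans ?_)
  have h1 : (∑ j ∈ range k, prism o (shift e o j) (shift e o (j + 1)) (sg t)).support.card
      ≤ k * 2 ^ (2 * d) := by
    refine (Finset.card_le_card Finsupp.support_finsetSum).trans ?_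
    refine (Finset.card_biUnion_le_card_mul _ _ (2 ^ (2 * d)) fun j _ => ?_).trans
      (by rw [Finset.card_range])
    refine (card_support_le_pow (prism_On o _ _ t) fun u hu => hu.1).trans
      (Nat.pow_le_pow_right (by norm_num) ?_)
    refine (Finset.card_union_le _ _).trans ?_
    have := Finset.card_image_le (s := t) (f := shift e o j)
    have := Finset.card_image_le (s := t) (f := shift e o (j + 1))
    omega
  have h2 : (cone o (push o (shift e o k) (sg t))).support.card ≤ 2 * 2 ^ (2 * d) := by
    refine (card_support_le_pow (U := {o}) (cone_On o (Q := fun u => u ⊆ {o})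
      (fun s hs _ => ?_) (push_On _ _ _)) fun u hu => hu).trans ?_
    · refine Finset.insert_subset (Finset.mem_singleton_self o) (hs.1.trans ?_)
      intro y hy
      obtain ⟨x, _, rfl⟩ := Finset.mem_image.mp hy
      exact Finset.mem_singleton.mpr (shift_last e o x)
    · have := Nat.one_le_two_pow (n := 2 * d)
      simp only [Finset.card_singleton, pow_one]
      omega
  rw [add_mul]
  omega

/-- the chain map onto sets that vary no more than their dimension -/
noncomputable def squash (o : Fin n) : Ch (Fin n) →ₗ[ZMod 2] Ch (Fin n) :=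
  recMap (fun s => fill e (pick o s)) 0 (sg ∅)

theorem bd_squash (o : Fin n) (z : Ch (Fin n)) : bd (squash e o z) = squash e o (bd z) := by
  have h : bd (squash e o z) + squash e o (bd z) = 0 :=
    recMap_homotopy (fun _ => fill_filler e _) (fun _ => by simp) (by simp [bd_sg]) z
  calc bd (squash e o z)
      = (bd (squash e o z) + squash e o (bd z)) + squash e o (bd z) := by
        rw [add_assoc, add_self', add_zero]
    _ = squash e o (bd z) := by rw [h, zero_add]

theorem squash_On (o : Fin n) (s : Finset (Fin n)) :
    squash e o (sg s) ∈ On (fun t => t.card = s.card ∧ cost e t ≤ s.card - 1 ∧ t ⊆ box e s) := by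
  refine recMap_On (fun s t => t.card = s.card ∧ cost e t ≤ s.card - 1 ∧ t ⊆ box e s)
    (sg_mem ⟨rfl, by rw [cost_card_le_one e (by simp)]; exact Nat.zero_le _,
      Finset.empty_subset _⟩) (fun s hs ih => ?_) s
  rw [LinearMap.zero_apply, zero_add, recMap_bd_sg, map_sum]
  refine Submodule.sum_mem _ fun x hx => ?_
  refine map_On (fill e (pick o s)) (fun t ht => On_mono (fun u hu => ?_) (fill_On e _ t)) (ih x hx)
  obtain ⟨h1, h2, h3⟩ := hu
  obtain ⟨g1, g2, g3⟩ := ht
  have hc := Finset.card_erase_add_one hx
  refine ⟨by omega, ?_, fun y hy => (mem_box e).mpr fun i => ?_⟩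
  · rcases Nat.lt_or_ge 1 s.card with h | h
    · omega
    · rw [cost_card_le_one e (by omega)]
      exact Nat.zero_le _
  · rcases Finset.mem_insert.mp (h3 i (Finset.mem_image_of_mem _ hy)) with h | h
    · rw [h]
      exact Finset.mem_image_of_mem _ (pick_mem o hs)
    · exact vals_mono e (Finset.erase_subset x s) i (vals_subset e g3 i h)

/-- the homotopy from the identity to `squash` -/
noncomputable def retract (o : Fin n) : Ch (Fin n) →ₗ[ZMod 2] Ch (Fin n) :=
  recMap (fun s => cone (pick o s)) (LinearMap.id + squash e o) 0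

theorem bd_retract (o : Fin n) (z : Ch (Fin n)) :
    bd (retract e o z) + retract e o (bd z) = z + squash e o z :=
  recMap_homotopy (fun _ => cone_filler _) (fun z => by simp [bd_squash])
    (by simp [squash, recMap_empty, add_self']) z

theorem retract_On (o : Fin n) (s : Finset (Fin n)) :
    retract e o (sg s) ∈ On (fun t => t.card = s.card + 1 ∧ t ⊆ box e s) := by
  refine recMap_On (fun s t => t.card = s.card + 1 ∧ t ⊆ box e s) (Submodule.zero_mem _)
    (fun s hs ih => ?_) s
  refine cone_On _ (P := fun t => t.card = s.card ∧ t ⊆ box e s)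
    (fun t ht hc => ⟨by rw [Finset.card_insert_of_notMem hc, ht.1],
      Finset.insert_subset (subset_box e s (pick_mem o hs)) ht.2⟩) ?_
  refine Submodule.add_mem _ ?_ ?_
  · rw [LinearMap.add_apply, LinearMap.id_apply]
    exact Submodule.add_mem _ (sg_mem ⟨rfl, subset_box e s⟩)
      (On_mono (fun t ht => ⟨ht.1, ht.2.2⟩) (squash_On e o s))
  · rw [recMap_bd_sg]
    refine Submodule.sum_mem _ fun x hx => On_mono (fun t ht => ?_) (ih x hx)
    exact ⟨by rw [ht.1, Finset.card_erase_add_one hx],
      ht.2.trans (box_mono e (Finset.erase_subset x s))⟩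

/-- the contracting homotopy -/
noncomputable def hom (o : Fin n) : Ch (Fin n) →ₗ[ZMod 2] Ch (Fin n) :=
  retract e o + (fill e o).comp (squash e o)

theorem bd_hom (o : Fin n) (z : Ch (Fin n)) : bd (hom e o z) + hom e o (bd z) = z := by
  simp only [hom, LinearMap.add_apply, map_add, LinearMap.comp_apply]
  rw [add_add_add_comm, bd_retract, ← bd_squash, fill_filler e o (squash e o z), add_assoc,
    add_self', add_zero]

theorem hom_On (o : Fin n) {s : Finset (Fin n)} {d : ℕ} (hs : s.card ≤ d) (hcs : cost e s ≤ d) :
    hom e o (sg s) ∈ On (fun t => t.card = s.card + 1 ∧ cost e t ≤ d) := by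
  simp only [hom, LinearMap.add_apply, LinearMap.comp_apply]
  refine Submodule.add_mem _ (On_mono (fun t ht =>
    ⟨ht.1, (cost_le_of_vals e (vals_subset e ht.2)).trans hcs⟩) (retract_On e o s)) ?_
  refine map_On (fill e o) (fun t ht => On_mono (fun u hu => ?_) (fill_On e o t)) (squash_On e o s)
  obtain ⟨h1, h2, _⟩ := hu
  refine ⟨by omega, ?_⟩
  rcases Nat.lt_or_ge 0 s.card with h | h
  · have := ht.2.1
    omega
  · rw [cost_card_le_one e (by omega)]
    exact Nat.zero_le _

theorem card_support_hom (o : Fin n) {s : Finset (Fin n)} {d : ℕ} (hs : s.card ≤ d)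
    (hcs : cost e s ≤ d) :
    (hom e o (sg s)).support.card ≤ 2 ^ 2 ^ d * ((k + 3) * 2 ^ (2 * d)) := by
  classical
  simp only [hom, LinearMap.add_apply, LinearMap.comp_apply]
  refine (Finset.card_le_card Finsupp.support_add).trans ((Finset.card_union_le _ _).trans ?_)
  have hbox : 2 ^ (box e s).card ≤ 2 ^ 2 ^ d :=
    Nat.pow_le_pow_right (by norm_num)
      ((card_box_le e s).trans (Nat.pow_le_pow_right (by norm_num) hcs))
  have h1 := (card_support_le_pow (retract_On e o s) fun u hu => hu.2).trans hbox
  have h2 := (card_support_map_le (fill e o) (z := squash e o (sg s))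
    (L := (k + 2) * 2 ^ (2 * d)) (fun t ht => card_support_fill e o (by
      have := (mem_On.mp (squash_On e o s) t ht).1
      omega))).trans
    (Nat.mul_le_mul_right _ ((card_support_le_pow (squash_On e o s) fun u hu => hu.2.2).trans hbox))
  have h3 : 1 ≤ 2 ^ (2 * d) := Nat.one_le_two_pow
  nlinarith

end Vale.Agent.P067.Sub
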