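import Vale.Agent.P067.Sub.Count

/-!
The complexes of sets of cost `d` in a grid are coboundary expanders.
-/

namespace Vale.Agent.P067.Sub

open Finset

variable {n k N : ℕ} (e : Fin n ≃ (Fin k → Fin N))

/-- a cochain, extended by zero -/
def ext {F : Finset (Finset (Fin n))} {i : ℕ} (f : Cochain F i) (s : Finset (Fin n)) : ZMod 2 :=
  if h : s ∈ faces F i then f ⟨s, h⟩ else 0

theorem ext_coe {F : Finset (Finset (Fin n))} {i : ℕ} (f : Cochain F i) (s : ↥(faces F i)) :
    ext f (s : Finset (Fin n)) = f s := by simp [ext, s.2]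

theorem mem_faces_iff {F : Finset (Finset (Fin n))} {i : ℕ} {s : Finset (Fin n)} :
    s ∈ faces F i ↔ ∃ T ∈ F, s ⊆ T ∧ s.card = i + 1 := by
  simp [faces, Finset.mem_biUnion, Finset.mem_powersetCard]

theorem cob_eq_sum {F : Finset (Finset (Fin n))} {i : ℕ} (f : Cochain F i)
    {t : Finset (Fin n)} (ht : t ∈ faces F (i + 1)) :
    cob F i f ⟨t, ht⟩ = ∑ x ∈ t, ext f (t.erase x) := by
  classical
  obtain ⟨T, hT, htT, htc⟩ := mem_faces_iff.mp ht
  show (∑ σ : ↥(faces F i), if (σ : Finset (Fin n)) ⊆ t then f σ else 0) = _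
  rw [← Finset.sum_filter]
  symm
  refine Finset.sum_bij (fun x hx => (⟨t.erase x, mem_faces_iff.mpr
    ⟨T, hT, (Finset.erase_subset x t).trans htT, by
      rw [Finset.card_erase_of_mem hx, htc]; omega⟩⟩ : ↥(faces F i))) ?_ ?_ ?_ ?_
  · intro x _
    simp [Finset.erase_subset]
  · intro x hx y hy h
    by_contra hne
    have h2 : t.erase x = t.erase y := congrArg Subtype.val h
    have : x ∈ t.erase x := by rw [h2]; exact Finset.mem_erase.mpr ⟨hne, hx⟩
    exact (Finset.mem_erase.mp this).1 rfl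
  · intro σ hσ
    simp only [Finset.mem_filter, Finset.mem_univ, true_and] at hσ
    obtain ⟨_, _, _, hσc⟩ := mem_faces_iff.mp σ.2
    obtain ⟨x, hx⟩ := Finset.card_eq_one.mp
      (show (t \ (σ : Finset (Fin n))).card = 1 by
        rw [Finset.card_sdiff_of_subset hσ, htc, hσc]; omega)
    have hxm : x ∈ t \ (σ : Finset (Fin n)) := by simp [hx]
    rw [Finset.mem_sdiff] at hxm
    refine ⟨x, hxm.1, Subtype.ext ?_⟩
    show t.erase x = (σ : Finset (Fin n))
    rw [Finset.erase_eq, ← hx, Finset.sdiff_sdiff_eq_self hσ]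
  · intro x hx
    exact ext_coe f ⟨t.erase x, _⟩

/-- the value of a function on a chain -/
noncomputable def pair (φ : Finset (Fin n) → ZMod 2) : Ch (Fin n) →ₗ[ZMod 2] ZMod 2 :=
  Finsupp.linearCombination (ZMod 2) φ

theorem pair_sg (φ : Finset (Fin n) → ZMod 2) (s : Finset (Fin n)) : pair φ (sg s) = φ s := by
  simp [pair, sg, Finsupp.linearCombination_single]

theorem sum_actSet (g : Fin k → Equiv.Perm (Fin N)) (ψ : Finset (Fin n) → ZMod 2)
    (t : Finset (Fin n)) :
    ∑ x ∈ actSet e g t, ψ ((actSet e g t).erase x) = ∑ x ∈ t, ψ (actSet e g (t.erase x)) := by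
  rw [actSet_eq, Finset.sum_map]
  exact Finset.sum_congr rfl fun x _ => by rw [actSet_eq, Finset.map_erase]

theorem actSet_inv (g : Fin k → Equiv.Perm (Fin N)) (s : Finset (Fin n)) :
    actSet e g (actSet e g⁻¹ s) = s := by
  rw [← actSet_mul, mul_inv_cancel, actSet_eq]
  have h1 : act e (1 : Fin k → Equiv.Perm (Fin N)) = Equiv.refl _ :=
    Equiv.ext fun x => e.injective (funext fun j => by simp [act_apply])
  rw [h1]
  simp

theorem actSet_mem_faces {d i : ℕ} (g : Fin k → Equiv.Perm (Fin N)) {s : Finset (Fin n)}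
    (h : s ∈ faces (tops e d) i) : actSet e g s ∈ faces (tops e d) i := by
  obtain ⟨T, hT, hsT, hc⟩ := mem_faces_iff.mp h
  exact mem_faces_iff.mpr ⟨actSet e g T, (actSet_mem_tops e g).mpr hT,
    Finset.map_subset_map.mpr hsT, by rw [actSet_eq, Finset.card_map, hc]⟩

theorem wnorm_eq (d : ℕ) (F : Finset (Finset (Fin n))) (i : ℕ) (f : Cochain F i) :
    wnorm d F i f = ∑ s ∈ faces F i, if ext f s = 0 then 0 else weight d F i s := by
  rw [wnorm, ← Finset.sum_coe_sort (faces F i)]
  exact Finset.sum_congr rfl fun s _ => by rw [ext_coe]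

theorem weight_nonneg (d : ℕ) (F : Finset (Finset (Fin n))) (i : ℕ) (s : Finset (Fin n)) :
    0 ≤ weight d F i s := by rw [weight]; positivity

theorem sum_weight_le (d : ℕ) (F : Finset (Finset (Fin n))) (hF : ∀ T ∈ F, T.card = d + 1)
    (i : ℕ) : ∑ s ∈ faces F i, weight d F i s ≤ 1 := by
  simp only [weight]
  rw [← Finset.sum_div]
  refine div_le_one_of_le₀ ?_ (by positivity)
  have h : ∑ s ∈ faces F i, (F.filter fun T => s ⊆ T).card ≤ (d + 1).choose (i + 1) * F.card := by
    calc ∑ s ∈ faces F i, (F.filter fun T => s ⊆ T).card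
        = ∑ T ∈ F, ((faces F i).filter fun s => s ⊆ T).card := by
          simp only [Finset.card_filter]
          exact Finset.sum_comm
      _ ≤ ∑ T ∈ F, (T.powersetCard (i + 1)).card := Finset.sum_le_sum fun T _ =>
          Finset.card_le_card fun s hs => by
            obtain ⟨hs, hsT⟩ := Finset.mem_filter.mp hs
            obtain ⟨_, _, _, hc⟩ := mem_faces_iff.mp hs
            exact Finset.mem_powersetCard.mpr ⟨hsT, hc⟩
      _ = ∑ T ∈ F, (d + 1).choose (i + 1) := Finset.sum_congr rfl fun T hT => by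
          rw [Finset.card_powersetCard, hF T hT]
      _ = (d + 1).choose (i + 1) * F.card := by
          rw [Finset.sum_const, smul_eq_mul, mul_comm]
  exact_mod_cast h

theorem weight_actSet (d i : ℕ) (g : Fin k → Equiv.Perm (Fin N)) (s : Finset (Fin n)) :
    weight d (tops e d) i (actSet e g s) = weight d (tops e d) i s := by
  rw [weight, weight, card_tops_actSet]

/-- the number of sets to which a face is moved -/
noncomputable def homSize (k d : ℕ) : ℕ :=
  2 ^ 2 ^ d * ((k + 3) * 2 ^ (2 * d)) * (d + 1) ^ d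

/-- how much heavier than average an orbit may be -/
noncomputable def orbSize (k d : ℕ) : ℕ :=
  2 ^ 2 ^ d * k ^ d * ((d + 1) ^ d * (d + 1) ^ (d + 1)) * 2 ^ (d + 1)

theorem expansion {d : ℕ} (hk : d ≤ k) (hN : d < N) (o : Fin n) {i : ℕ} (hi : i < d)
    (f : Cochain (tops e d) i) : ∃ a ∈ cobs (tops e d) i,
      wnorm d (tops e d) i (f - a) ≤
        ((homSize k d : ℕ) : ℝ) * ((orbSize k d : ℕ) : ℝ) *
          wnorm d (tops e d) (i + 1) (cob (tops e d) i f) := by
  classical
  revert f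
  set X := tops e d with hX
  intro f
  have hz : ∀ s : Finset (Fin n), ∃ z : Ch (Fin n), s ∈ faces X i →
      z ∈ On (fun t => t ∈ faces X (i + 1)) ∧ bd z = bd (hom e o (sg s)) ∧
        z.support.card ≤ homSize k d := by
    intro s
    by_cases hs : s ∈ faces X i
    · obtain ⟨hc, hcost⟩ := of_mem_faces_tops e hs
      obtain ⟨z, h1, h2, h3⟩ := exists_homotopy e hk hN o (s := s) (by omega) hcost
      exact ⟨z, fun _ => ⟨On_mono (fun t ht => mem_faces_tops e hk hN (by omega) hi ht.2.1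
        fun h => ht.2.2 (by omega)) h1, h2, h3⟩⟩
    · exact ⟨0, fun h => absurd h hs⟩
  choose z hz using hz
  set L := fun g : Fin k → Equiv.Perm (Fin N) => pair fun s => ext f (actSet e g s) with hL
  have hprim : ∀ g : Fin k → Equiv.Perm (Fin N), ∃ a ∈ cobs X i, ∀ t ∈ faces X i,
      ext (f - a) t = L g (bd (z (actSet e g⁻¹ t))) := by
    intro g
    set a : Cochain X i := fun t => L g (hom e o (bd (sg (actSet e g⁻¹ (t : Finset (Fin n))))))
      with ha
    refine ⟨a, ?_, fun t ht => ?_⟩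
    · cases i with
      | zero =>
        refine Submodule.mem_span_singleton.mpr ⟨L g (hom e o (sg ∅)), ?_⟩
        funext t
        obtain ⟨hc, -⟩ := of_mem_faces_tops e (d := d) t.2
        obtain ⟨x, hx⟩ := Finset.card_eq_one.mp hc
        simp [ha, hx, bd_sg, actSet_eq]
      | succ j =>
        refine ⟨fun ρ => L g (hom e o (sg (actSet e g⁻¹ (ρ : Finset (Fin n))))), ?_⟩
        funext t
        obtain ⟨tv, ht⟩ := t
        rw [cob_eq_sum _ ht]
        simp only [ha, bd_sg, map_sum]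
        rw [show ∑ x ∈ actSet e g⁻¹ tv, L g (hom e o (sg ((actSet e g⁻¹ tv).erase x)))
            = ∑ x ∈ tv, L g (hom e o (sg (actSet e g⁻¹ (tv.erase x)))) from
          sum_actSet e g⁻¹ (fun u => L g (hom e o (sg u))) tv]
        refine Finset.sum_congr rfl fun x hx => ?_
        have hm : tv.erase x ∈ faces X j := by
          obtain ⟨T, hT, htT, htc⟩ := mem_faces_iff.mp ht
          exact mem_faces_iff.mpr ⟨T, hT, (Finset.erase_subset x tv).trans htT, by
            rw [Finset.card_erase_of_mem hx, htc]; omega⟩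
        rw [ext, dif_pos hm]
    · set s := actSet e g⁻¹ t with hs
      have hsF : s ∈ faces X i := actSet_mem_faces e g⁻¹ ht
      have h1 : ext f t = L g (bd (z s)) + L g (hom e o (bd (sg s))) := by
        rw [(hz s hsF).2.1, ← map_add, bd_hom, hL]
        show _ = pair _ (sg s)
        rw [pair_sg, hs, actSet_inv]
      rw [ext, dif_pos ht, Pi.sub_apply]
      rw [ext, dif_pos ht] at h1
      rw [h1]
      show _ - a ⟨t, ht⟩ = _
      rw [ha]
      exact add_sub_cancel_right _ _
  choose a ha hfa using hprim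
  set bad := (faces X (i + 1)).filter fun t => ext (cob X i f) t ≠ 0 with hbad
  have hbadsum : ∑ t ∈ bad, weight d X (i + 1) t = wnorm d X (i + 1) (cob X i f) := by
    rw [wnorm_eq, hbad, Finset.sum_filter]
    exact Finset.sum_congr rfl fun t _ => by rw [ite_not]
  set cnt := fun (g : Fin k → Equiv.Perm (Fin N)) (s : Finset (Fin n)) =>
    ((z s).support.filter fun u => actSet e g u ∈ bad).card with hcnt
  have hpt : ∀ g, ∀ t ∈ faces X i,
      (if ext (f - a g) t = 0 then 0 else weight d X i t) ≤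
        weight d X i t * (cnt g (actSet e g⁻¹ t) : ℝ) := by
    intro g t ht
    split_ifs with h0
    · exact mul_nonneg (weight_nonneg _ _ _ _) (Nat.cast_nonneg _)
    · refine le_mul_of_one_le_right (weight_nonneg _ _ _ _) ?_
      rw [Nat.one_le_cast, Nat.one_le_iff_ne_zero, hcnt, Ne, Finset.card_eq_zero]
      intro hempty
      apply h0
      set s := actSet e g⁻¹ t with hs
      have hsF : s ∈ faces X i := actSet_mem_faces e g⁻¹ ht
      rw [hfa g t ht, ← Finsupp.sum_single (z s), Finsupp.sum, map_sum, map_sum]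
      refine Finset.sum_eq_zero fun u hu => ?_
      have huF : u ∈ faces X (i + 1) := mem_On.mp (hz s hsF).1 u hu
      have e1 : Finsupp.single u ((z s) u) = (z s) u • sg u := by simp [sg]
      rw [e1, map_smul, map_smul]
      have e2 : L g (bd (sg u)) = ext (cob X i f) (actSet e g u) := by
        rw [ext, dif_pos (actSet_mem_faces e g huF), cob_eq_sum, sum_actSet, bd_sg, map_sum]
        exact Finset.sum_congr rfl fun x _ => pair_sg _ _
      have e3 : ext (cob X i f) (actSet e g u) = 0 := by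
        by_contra hne
        have : u ∈ (z s).support.filter fun u => actSet e g u ∈ bad :=
          Finset.mem_filter.mpr ⟨hu, Finset.mem_filter.mpr ⟨actSet_mem_faces e g huF, hne⟩⟩
        rw [hempty] at this
        exact Finset.notMem_empty _ this
      rw [e2, e3, smul_zero]
  have hnorm : ∀ g, wnorm d X i (f - a g) ≤ ∑ s ∈ faces X i, weight d X i s * (cnt g s : ℝ) := by
    intro g
    rw [wnorm_eq]
    refine (Finset.sum_le_sum (hpt g)).trans_eq ?_
    refine Finset.sum_nbij' (actSet e g⁻¹) (actSet e g) (fun t ht => actSet_mem_faces e _ ht)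
      (fun t ht => actSet_mem_faces e _ ht) (fun t _ => actSet_inv e g t) (fun t _ => ?_)
      (fun t _ => by rw [weight_actSet])
    simpa using actSet_inv e g⁻¹ t
  set P := (Fintype.card (Fin k → Equiv.Perm (Fin N)) : ℝ)
  have hcount : ∀ s ∈ faces X i, ∑ g, (cnt g s : ℝ) ≤
      (homSize k d : ℝ) * ((orbSize k d : ℝ) * P * wnorm d X (i + 1) (cob X i f)) := by
    intro s hs
    have e1 : ∑ g, cnt g s = ∑ u ∈ (z s).support, ∑ t ∈ bad,
        (univ.filter fun g => actSet e g u = t).card := by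
      simp only [hcnt, Finset.card_filter]
      rw [Finset.sum_comm]
      refine Finset.sum_congr rfl fun u _ => ?_
      rw [Finset.sum_comm (s := bad)]
      exact Finset.sum_congr rfl fun g _ => by rw [Finset.sum_ite_eq]
    have e2 : ∑ g, (cnt g s : ℝ) = ((∑ g, cnt g s : ℕ) : ℝ) := by push_cast; rfl
    rw [e2, e1, Nat.cast_sum]
    refine (Finset.sum_le_card_nsmul _ _ _ fun u hu => ?_).trans
      ((nsmul_eq_mul _ _).trans_le (mul_le_mul_of_nonneg_right
        (Nat.cast_le.mpr (hz s hs).2.2) ?_))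
    · rw [Nat.cast_sum, ← hbadsum, Finset.mul_sum]
      exact Finset.sum_le_sum fun t ht =>
        fiber_le_weight e hN (by omega) (Finset.mem_filter.mp ht).1
    · have : 0 ≤ wnorm d X (i + 1) (cob X i f) := by
        rw [← hbadsum]; exact Finset.sum_nonneg fun t _ => weight_nonneg _ _ _ _
      positivity
  have htot : ∑ g, wnorm d X i (f - a g) ≤
      ∑ _g : Fin k → Equiv.Perm (Fin N), ((homSize k d : ℕ) : ℝ) * ((orbSize k d : ℕ) : ℝ) *
        wnorm d X (i + 1) (cob X i f) := by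
    rw [Finset.sum_const, nsmul_eq_mul, Finset.card_univ]
    refine (Finset.sum_le_sum fun g _ => hnorm g).trans ?_
    rw [Finset.sum_comm]
    simp only [← Finset.mul_sum]
    refine (Finset.sum_le_sum fun s hs =>
      mul_le_mul_of_nonneg_left (hcount s hs) (weight_nonneg _ _ _ _)).trans ?_
    rw [← Finset.sum_mul]
    have hnn : 0 ≤ (homSize k d : ℝ) * ((orbSize k d : ℝ) * P * wnorm d X (i + 1) (cob X i f)) := by
      have : 0 ≤ wnorm d X (i + 1) (cob X i f) := by
        rw [← hbadsum]; exact Finset.sum_nonneg fun t _ => weight_nonneg _ _ _ _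
      positivity
    refine (mul_le_of_le_one_left hnn (sum_weight_le d X
      (fun T hT => ((mem_tops e).mp hT).1) i)).trans_eq ?_
    ring
  obtain ⟨g, -, hg⟩ := Finset.exists_le_of_sum_le Finset.univ_nonempty htot
  exact ⟨a g, ha g, hg⟩

/-- coboundary expanders of degree `O((kN)^d)` on `N^k` vertices with expansion `1/k^(d+1)` -/
theorem grid_expanders : ∀ d : ℕ, 1 ≤ d → ∃ C : ℕ, ∃ c : ℝ, 0 < c ∧
    ∀ k N : ℕ, d ≤ k → d < N → ∃ F : Finset (Finset (Fin (N ^ k))),
      IsPure d F ∧ DegreeLE (C * (k * N) ^ d) F ∧ IsCobExpander d F (c / (k : ℝ) ^ (d + 1)) := by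
  intro d hd
  set A := 2 ^ 2 ^ d * (4 * 2 ^ (2 * d)) * (d + 1) ^ d *
    (2 ^ 2 ^ d * ((d + 1) ^ d * (d + 1) ^ (d + 1)) * 2 ^ (d + 1)) with hA
  have hA0 : (0 : ℝ) < A := by positivity
  refine ⟨2 ^ 2 ^ d, 1 / (A : ℝ), by positivity, fun k N hk hN => ?_⟩
  set e : Fin (N ^ k) ≃ (Fin k → Fin N) := finFunctionFinEquiv.symm
  refine ⟨tops e d, tops_pure e hd hk hN, tops_degree e d, fun i hi f => ?_⟩
  have ho : 0 < N ^ k := Nat.pow_pos (by omega)
  obtain ⟨a, ha, hle⟩ := expansion e hk hN ⟨0, ho⟩ hi f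
  refine ⟨a, ha, ?_⟩
  have hk0 : (0 : ℝ) < k := by exact_mod_cast (show 0 < k by omega)
  have hw : 0 ≤ wnorm d (tops e d) (i + 1) (cob (tops e d) i f) := by
    rw [wnorm_eq]
    exact Finset.sum_nonneg fun t _ => by split_ifs <;> [exact le_rfl; exact weight_nonneg _ _ _ _]
  have hsize : homSize k d * orbSize k d ≤ A * k ^ (d + 1) := by
    rw [homSize, orbSize, hA, pow_succ k d]
    calc _ ≤ 2 ^ 2 ^ d * ((4 * k) * 2 ^ (2 * d)) * (d + 1) ^ d *
          (2 ^ 2 ^ d * k ^ d * ((d + 1) ^ d * (d + 1) ^ (d + 1)) * 2 ^ (d + 1)) := by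
          gcongr; omega
      _ = _ := by ring
  have h2 : wnorm d (tops e d) i (f - a) ≤
      (A : ℝ) * (k : ℝ) ^ (d + 1) * wnorm d (tops e d) (i + 1) (cob (tops e d) i f) :=
    hle.trans (mul_le_mul_of_nonneg_right (by exact_mod_cast hsize) hw)
  rw [div_div, one_div_mul_eq_div, div_le_iff₀ (by positivity)]
  linarith

/-- coboundary expanders of degree a small power of the number of vertices -/
theorem subpolynomial_expanders : ∀ (d : ℕ) (δ : ℝ), 1 ≤ d → 0 < δ → ∃ ε : ℝ, 0 < ε ∧
    ∀ n₀ : ℕ, ∃ n : ℕ, n₀ ≤ n ∧ ∃ F : Finset (Finset (Fin n)),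
      IsPure d F ∧ IsCobExpander d F ε ∧
        ∀ v, ((F.filter fun τ => v ∈ τ).card : ℝ) ≤ (n : ℝ) ^ δ := by
  intro d δ hd hδ
  obtain ⟨C, c, hc, hgrid⟩ := grid_expanders d hd
  set k := d + ⌈((d : ℝ) + 1) / δ⌉₊ with hkdef
  have hkd : (d : ℝ) + 1 ≤ (k : ℝ) * δ := by
    rw [← div_le_iff₀ hδ]
    refine (Nat.le_ceil _).trans (Nat.cast_le.mpr ?_)
    exact Nat.le_add_left _ _
  have hk0 : (0 : ℝ) < k := by exact_mod_cast (show 0 < k by omega)
  refine ⟨c / (k : ℝ) ^ (d + 1), by positivity, fun n₀ => ?_⟩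
  set N := C * k ^ d + d + 1 + n₀ with hN
  obtain ⟨F, hp, hdeg, hexp⟩ := hgrid k N (Nat.le_add_right _ _) (by omega)
  refine ⟨N ^ k, le_trans (by omega) (Nat.le_self_pow (by omega) N), F, hp, hexp, fun v => ?_⟩
  have h1 : C * (k * N) ^ d ≤ N ^ (d + 1) := by
    rw [mul_pow, ← mul_assoc, pow_succ']
    exact Nat.mul_le_mul_right _ (by omega)
  have hN1 : (1 : ℝ) ≤ (N : ℝ) := by exact_mod_cast (show 1 ≤ N by omega)
  calc ((F.filter fun τ => v ∈ τ).card : ℝ) ≤ ((N ^ (d + 1) : ℕ) : ℝ) := by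
        exact_mod_cast (hdeg v).trans h1
    _ = (N : ℝ) ^ ((d : ℝ) + 1) := by
        rw [Nat.cast_pow, ← Real.rpow_natCast]; push_cast; rfl
    _ ≤ (N : ℝ) ^ ((k : ℝ) * δ) := Real.rpow_le_rpow_of_exponent_le hN1 hkd
    _ = ((N ^ k : ℕ) : ℝ) ^ δ := by
        rw [Real.rpow_mul (by positivity), Real.rpow_natCast, Nat.cast_pow]

end Vale.Agent.P067.Sub
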